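import Mathlib

/-! # Irrationality of Catalan's constant: all definitions.  See `notes/P030.md`. -/

namespace Vale.Agent.P030

open Polynomial Finset

noncomputable section

/-- Catalan's constant. -/
def catG : ℝ := ∑' j : ℕ, (-1 : ℝ) ^ j / (2 * (j : ℝ) + 1) ^ 2

/-! ## Rational sequences -/

def gam (u : ℕ) : ℚ := (Nat.centralBinom u : ℚ) / 4 ^ u
def bet (u : ℕ) : ℚ := (Nat.centralBinom u : ℚ) / 2 ^ u
/-- coefficients of `(1 - t^2)^(-1/2)` -/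
def gamE (m : ℕ) : ℚ := if m % 2 = 0 then gam (m / 2) else 0
/-- `SS (t^a)` -/
def Jv (a : ℕ) : ℚ := if a % 2 = 1 then 1 / ((((a + 1) / 2 : ℕ) : ℚ) * gam ((a + 1) / 2)) else 0
/-- `SS (t^d * ell t) = LamR d + catG * LamG d` -/
def LamG (d : ℕ) : ℚ := 4 * gamE d
def LamR (d : ℕ) : ℚ :=
  if d % 2 = 0 then gam (d / 2) * ∑ i ∈ range (d / 2), Jv (2 * i + 1) ^ 2 / 2
  else Jv d * ∑ i ∈ range ((d + 1) / 2), 1 / (2 * (i : ℚ) + 1)
def Ip (d : ℕ) : ℚ := 1 / ((d : ℚ) + 1)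
def Zp (d : ℕ) : ℚ := harmonic (d + 1) / ((d : ℚ) + 1)
def Theta (m : ℕ) : ℚ := 2 * (∑ u ∈ range ((m + 1) / 2), gam u / ((m : ℚ) - 2 * u)) / m
def kap (m : ℕ) : ℚ := Theta m - 3 / 2 * (harmonic m / m)
/-- rational part of `SS (RR (X^m))` -/
def LamP (m : ℕ) : ℚ := ∑ a ∈ range (m + 1), gamE a * Theta (m - a)
/-- `SS ((1+t)^(-m))` -/
def Jn (m : ℕ) : ℚ := 2 * (∑ i ∈ range m, bet i) / (m * bet m)
/-- `SS ((1+t)^(-m) * ell t)` for `1 ≤ m` -/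
def Ln (m : ℕ) : ℚ := (∑ i ∈ range m, bet i * Jn i) / (m * bet m)

/-- `lin a m f = ∑_{i ≥ m} f_i * a (i - m)` -/
def lin (a : ℕ → ℚ) (m : ℕ) (f : ℚ[X]) : ℚ :=
  f.sum fun i c => if m ≤ i then c * a (i - m) else 0

/-! ## Rows, columns, the two rational matrices -/

structure Row where
  g : ℚ[X]
  D : ℚ[X]
  eJ : ℕ → ℚ
  eL : ℕ → ℚ

def Row.JJ (r : Row) (m : ℕ) : ℚ := lin Jv m r.g - 3 / 2 * lin Ip m r.D + r.eJ m
def Row.LL (r : Row) (m : ℕ) : ℚ := lin LamR m r.g - 3 / 2 * lin Zp m r.D + r.eL m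
def Row.KK (r : Row) (j : ℕ) : ℚ := ∑ a ∈ range j, r.D.coeff a * kap (j - a)
/-- rational part of the pairing of the row with `s^j` -/
def Row.eR (r : Row) (j : ℕ) : ℚ :=
  r.LL (j + 1) - ∑ i ∈ range j, r.JJ (j - i) / ((i : ℚ) + 1) + r.KK j
/-- coefficient of Catalan's constant in the pairing of the row with `s^j` -/
def Row.eG (r : Row) (j : ℕ) : ℚ := lin LamG (j + 1) r.g

/-- `t^e T_e(1/t)` -/
def Trev : ℕ → ℚ[X]
  | 0 => 1
  | 1 => 1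
  | e + 2 => 2 * Trev (e + 1) - X ^ 2 * Trev e
/-- `t^(e-1) U_(e-1)(1/t)` -/
def Urev : ℕ → ℚ[X]
  | 0 => 0
  | 1 => 1
  | e + 2 => 2 * Urev (e + 1) - X ^ 2 * Urev e

def xRow (g D : ℚ[X]) : Row := ⟨g, D, 0, 0⟩
/-- polar part at `t = -1` of `f / (1+t)^k`, paired with `F` -/
def pol (k : ℕ) (F : ℕ → ℚ) (f : ℚ[X]) : ℚ :=
  ∑ l ∈ range k, (taylor (-1) f).coeff l * F (k - l)
/-- the row attached to the function `f / (1+t)^k` -/
def sRow (k : ℕ) (f : ℚ[X]) : Row :=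
  ⟨f /ₘ (X + 1) ^ k, 0, fun m => pol k Jn (f /ₘ X ^ m), fun m => pol k Ln (f /ₘ X ^ m)⟩
/-- the row attached to `t^(19N) (1-t)^N x^e` where `t = 2x/(1+x^2)` -/
def rowX (N e : ℕ) : Row :=
  xRow (X ^ (19 * N - e) * Trev e * (1 - X) ^ N) (X ^ (19 * N - e) * Urev e * (1 - X) ^ N)
def rowS (N a : ℕ) : Row := sRow (3 * N) (X ^ (22 * N - a) * (1 - X) ^ N)
def row (N r : ℕ) : Row := if r < 3 * N then rowS N r else rowX N (r - 3 * N + 1)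
def col (N c : ℕ) : ℚ[X] := X ^ (2 * N + c) * (1 - X) ^ N
def ER (N : ℕ) : Matrix (Fin (16 * N)) (Fin (16 * N)) ℚ :=
  Matrix.of fun r c => lin (row N r).eR 0 (col N c)
def EG (N : ℕ) : Matrix (Fin (16 * N)) (Fin (16 * N)) ℚ :=
  Matrix.of fun r c => lin (row N r).eG 0 (col N c)
/-- the determinant when Catalan's constant is `a / b` (times `b^(16N)`) -/
def Del (N : ℕ) (a b : ℤ) : ℚ := ((b : ℚ) • ER N + (a : ℚ) • EG N).det

/-- integer coefficients -/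
def IsInt (f : ℚ[X]) : Prop := ∀ i, ∃ z : ℤ, f.coeff i = z

structure RowOK (N : ℕ) (r : Row) : Prop where
  gint : IsInt r.g
  Dint : IsInt r.D
  gdeg : ∀ i, 20 * N < i → r.g.coeff i = 0
  Ddeg : ∀ i, 20 * N ≤ i → r.D.coeff i = 0
  Dlow : ∀ i, i < 6 * N → r.D.coeff i = 0
  ee : ∀ m, ∃ c : ℕ → ℤ, r.eJ m = ∑ l ∈ range (3 * N), c l * Jn (3 * N - l) ∧
    r.eL m = ∑ l ∈ range (3 * N), c l * Ln (3 * N - l)

/-- `D = g / sqrt (1 - t^2)` modulo `t^L` -/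
def Contact (L : ℕ) (g D : ℚ[X]) : Prop :=
  ∀ j, j < L → D.coeff j = ∑ a ∈ range (j + 1), g.coeff a * gamE (j - a)

/-- exponent of an odd prime `y` with `21 N < y^2` in the denominator of `Del N a b` -/
def prof (N y : ℕ) : ℕ :=
  if 2 * y ≤ 15 * N then 32 * N
  else if y ≤ 9 * N then 47 * N - 2 * y
  else if y ≤ 10 * N then 29 * N
  else if 2 * y ≤ 21 * N then 49 * N - 2 * y
  else (20 * N - y) + (19 * N - y) + (18 * N - y) + (13 * N - y)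

/-! ## Objects for the non-vanishing modulo the prime `p = N` -/

/-- congruence modulo `p` -/
def Cg (p : ℕ) (x y : ℚ) : Prop := padicNorm p (x - y) < 1
def bp (p : ℕ) : ℚ[X] := (1 - X ^ 2) ^ ((p - 1) / 2)
/-- Cartier operator: the coefficient of `X^I` is that of `X^(c + p I)` in `f` (for `1 ≤ p`) -/
def cart (p c : ℕ) (f : ℚ[X]) : ℚ[X] :=
  ∑ I ∈ range (f.natDegree + 1), monomial I (f.coeff (c + p * I))
def rowST (N a : ℕ) : Row := sRow (3 * N) (X ^ (22 * N - a) * Trev a * (1 - X) ^ N)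
def rowT (N r : ℕ) : Row := if r < 3 * N then rowST N r else rowX N (r - 3 * N + 1)
def colT (p c K : ℕ) : ℚ[X] := Chebyshev.T ℚ c * X ^ (p * (K + 2)) * (1 - X) ^ p
def x1 (E K : ℕ) : ℚ := lin (rowX 1 E).eR 0 (col 1 K)
def s1 (A K : ℕ) : ℚ := lin (rowST 1 A).eR 0 (col 1 K)
def Bhalf (F : ℕ → ℕ → ℚ) (p e c K : ℕ) : ℚ :=
  ((if p ∣ e + c then F ((e + c) / p) K else 0) + (if e % p = c then F (e / p) K else 0)) / 2
def Bent (p r c K : ℕ) : ℚ :=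
  if r < 3 * p then Bhalf s1 p r c K else Bhalf x1 p (r - 3 * p + 1) c K
def B0 : Matrix (Fin 16) (Fin 16) ℚ := Matrix.of fun i K => if i.val < 3 then s1 i K else x1 (i - 3) K
def B1 : Matrix (Fin 16) (Fin 16) ℚ :=
  Matrix.of fun i K => if i.val < 3 then s1 (i + 1) K else x1 (i - 2) K
def B2 : Matrix (Fin 16) (Fin 16) ℚ := Matrix.of fun i K => if i.val < 3 then s1 i K else x1 (i - 2) K

/-! ## The path of integration (four pieces, parameter in `(0,1)`) -/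

def vv (s θ : ℝ) : ℂ := (1 / 12) * Complex.exp (((s * (Real.pi / 2) * θ : ℝ) : ℂ) * Complex.I)
def xk : Fin 4 → ℝ → ℂ :=
  ![fun θ => θ, fun θ => -(11 / 13) * θ, fun θ => (vv 1 θ - 1) / (vv 1 θ + 1),
    fun θ => (vv (-1) θ - 1) / (vv (-1) θ + 1)]
/-- derivative of `xk` -/
def dxk : Fin 4 → ℝ → ℂ :=
  ![fun _ => 1, fun _ => -(11 / 13),
    fun θ => Real.pi * Complex.I * vv 1 θ / (vv 1 θ + 1) ^ 2,
    fun θ => -(Real.pi * Complex.I * vv (-1) θ) / (vv (-1) θ + 1) ^ 2]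
def ck : Fin 4 → ℂ := ![1, 1, 1 / 2, 1 / 2]
def alk : Fin 4 → ℂ := ![5 / 4, 1 / 2, 1 / 2, 1 / 2]
def bek : Fin 4 → ℂ := ![-1 / 4, 1 / 2, 1 / 2, 1 / 2]
def tt (x : ℂ) : ℂ := 2 * x / (1 + x ^ 2)
def tk (k : Fin 4) (θ : ℝ) : ℂ := tt (xk k θ)
def wk (k : Fin 4) (θ : ℝ) : ℂ := xk k θ + (xk k θ)⁻¹
def wt (k : Fin 4) (θ : ℝ) : ℂ := ck k * dxk k θ * (2 / (1 + xk k θ ^ 2))
/-- finite part of `∫_{-1}^1 sign t * φ t / sqrt (1 - t^2) dt` -/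
def SS (φ : ℂ → ℂ) : ℂ := ∑ k, ∫ θ in (0 : ℝ)..1, wt k θ * φ (tk k θ)
def Good (φ : ℂ → ℂ) : Prop :=
  ∀ k, IntervalIntegrable (fun θ => wt k θ * φ (tk k θ)) MeasureTheory.volume 0 1
def ell (t : ℂ) : ℂ := -Complex.log (1 - t)
def RR (Q : ℚ[X]) (t : ℂ) : ℂ := ∫ s in (0 : ℝ)..1, aeval (s : ℂ) Q / (1 - t * s)
/-- this is `π^2/6`, but its value is never needed -/
def zet : ℂ := ∫ θ in (0 : ℝ)..1, RR 1 θ
def Phi (N r : ℕ) (k : Fin 4) (θ : ℝ) : ℂ :=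
  if r < 3 * N then tk k θ ^ (22 * N - r) * (1 - tk k θ) ^ N / (1 + tk k θ) ^ (3 * N)
  else tk k θ ^ (19 * N) * (1 - tk k θ) ^ N *
    (alk k * xk k θ ^ (r - 3 * N + 1) + bek k * (xk k θ)⁻¹ ^ (r - 3 * N + 1))

/-! ## Logarithmic potentials of finite signed systems of atoms -/

/-- position, smoothing parameter, weight -/
abbrev Atom := ℂ × ℝ × ℝ
def pot (L : List Atom) (z : ℂ) : ℝ :=
  (L.map fun a => a.2.2 * Real.log (Complex.normSq (z - a.1) + a.2.1)).sum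
def ener (L : List Atom) : ℝ :=
  (L.map fun a => a.2.2 *
    (L.map fun b => b.2.2 * Real.log (Complex.normSq (a.1 - b.1) + a.2.1 + b.2.1)).sum).sum
def mass (L : List Atom) : ℝ := (L.map fun a => a.2.2).sum
def PosA (L : List Atom) : Prop := ∀ a ∈ L, 0 < a.2.1

def dl : ℝ := 1 / 2 ^ 40
def e0 : ℝ := 1 / 2 ^ 24
/-- where the points `wk k θ` live -/
def Mu (w : ℂ) : Prop :=
  (w.im = 0 ∧ (2 ≤ w.re ∨ w.re ≤ -(290 / 143))) ∨ ‖w + 41474 / 20735‖ = 576 / 20735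
def Pair (w : ℂ) : Prop := Mu w ∧ (w.re ≤ 2 + dl ∨ 29 / 10 ≤ w.re)
def Eta (z : ℂ) : Prop :=
  (∃ u : ℝ, -2 ≤ u ∧ u ≤ 2 ∧ ‖z - u‖ ≤ 3 * dl) ∨
    (∃ z' : ℂ, ‖z' - 49 / 20‖ = 9 / 20 ∧ ‖z - z'‖ ≤ 3 * dl)
def extMu (w : ℂ) : ℝ :=
  19 * Real.log 4 - 20 * Real.log (Complex.normSq w) + Real.log (Complex.normSq (w - 2) + e0) +
    4 * max 0 (Real.log (‖w‖ / 64))

structure CertOK (L1 L2 L3 L4 : List Atom) (m2 m1 me mn : ℝ) : Prop where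
  p1 : PosA L1
  p2 : PosA L2
  p3 : PosA L3
  p4 : PosA L4
  s1 : mass L1 = 0
  s2 : mass L2 = 16
  s3 : mass L3 = 13
  s4 : mass L4 = 3
  hmu : ∀ w, Mu w → extMu w - 3 * Real.log (Complex.normSq (w + 2)) + pot L1 w + pot L4 w ≤ m2
  hpair : ∀ w, Pair w → extMu w + pot L1 w + pot L3 w ≤ m1
  heta : ∀ z, Eta z → 3 * Real.log (Complex.normSq (z + 2) + e0) + pot L3 z - pot L4 z ≤ me
  hnu : ∀ u : ℝ, 0 ≤ u → u ≤ 2 → 2 * Real.log (u ^ 2 + e0) + Real.log ((u - 2) ^ 2 + e0) -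
    3 * Real.log 4 - pot L1 u + pot L2 u ≤ mn
  hsum : m2 + me ≤ m1

/-- the coefficient of `N^2` in the upper bound for the logarithm of the real determinant -/
def expo (L1 L2 L3 L4 : List Atom) (m2 m1 mn : ℝ) : ℝ :=
  (3 * m2 + 13 * m1 + 16 * mn) / 2 - (ener L1 + ener L2 + ener L3 + ener L4) / 4 -
    247 / 2 * Real.log 2

/-- absolute value of the Vandermonde determinant -/
def Vn {n : ℕ} (w : Fin n → ℂ) : ℝ := ‖(Matrix.vandermonde w).det‖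
/-- Lagrange weights times powers -/
def Cw {n : ℕ} (w : Fin n → ℂ) (i : Fin n) (l : ℕ) : ℂ := w i ^ l / ∏ j ∈ univ.erase i, (w i - w j)

end

end Vale.Agent.P030
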